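import Vale.Agent.P022.H374.Frob

/-! (N5) finiteness of the set of ramified primes. -/

namespace Vale.Agent.P022.H374

open NumberField

section fin

variable (K L : Type) [Field K] [NumberField K] [Field L] [NumberField L] [Algebra K L]

/-- There is a positive integer contained in every prime of `L` with nontrivial inertia. -/
theorem exists_mem_ramified : ∃ D : ℕ, 0 < D ∧ ∀ P : Ideal (𝓞 L), P.IsPrime →
    ∀ σ : L ≃ₐ[K] L, PowP P 1 σ → σ ≠ 1 → (D : 𝓞 L) ∈ P := by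
  classical
  have h : ∀ σ : L ≃ₐ[K] L, ∃ x : 𝓞 L, σ ≠ 1 → σ • x - x ≠ 0 := by
    intro σ
    by_cases hσ : σ = 1
    · exact ⟨0, fun h => absurd hσ h⟩
    · by_contra hcon
      push Not at hcon
      apply hσ
      have h1 : ∀ x : 𝓞 L, σ (x : L) = x := by
        intro x
        have h2 := (hcon x).2
        rw [sub_eq_zero] at h2
        have h3 := congrArg (fun y : 𝓞 L => (y : L)) h2
        exact h3
      ext x
      obtain ⟨a, b, hb, rfl⟩ := IsFractionRing.div_surjective (A := 𝓞 L) x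
      rw [map_div₀]
      have e1 := h1 a
      have e2 := h1 b
      rw [show (algebraMap (𝓞 L) L) a = (a : L) from rfl,
        show (algebraMap (𝓞 L) L) b = (b : L) from rfl, e1, e2]
      rfl
  choose x hx using h
  set d : 𝓞 L := ∏ σ ∈ Finset.univ.erase (1 : L ≃ₐ[K] L), (σ • x σ - x σ) with hd
  have hd0 : d ≠ 0 := by
    rw [hd, Finset.prod_ne_zero_iff]
    intro σ hσ
    exact hx σ (Finset.ne_of_mem_erase hσ)
  refine ⟨Ideal.absNorm (Ideal.span {d}), ?_, ?_⟩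
  · apply Nat.pos_of_ne_zero
    intro h0
    rw [Ideal.absNorm_eq_zero_iff, Ideal.span_singleton_eq_bot] at h0
    exact hd0 h0
  · intro P hP σ hσ hne
    have h1 : σ • x σ - x σ ∈ P := by
      have := powP_iff.1 hσ (x σ)
      rwa [pow_one] at this
    have h2 : d ∈ P := by
      rw [hd]
      have h3 : (σ • x σ - x σ) ∣ ∏ σ ∈ Finset.univ.erase (1 : L ≃ₐ[K] L), (σ • x σ - x σ) :=
        Finset.dvd_prod_of_mem _ (Finset.mem_erase.2 ⟨hne, Finset.mem_univ _⟩)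
      exact Ideal.mem_of_dvd P h3 h1
    have h4 : Ideal.span {d} ≤ P := (Ideal.span_singleton_le_iff_mem P).2 h2
    exact h4 (Ideal.absNorm_mem _)

/-- **(N5)** Almost all primes are unramified. -/
theorem exists_unram : ∃ D : ℕ, 0 < D ∧ ∀ 𝔭 : Ideal (𝓞 K), 𝔭.IsPrime → (D : 𝓞 K) ∉ 𝔭 →
    Unram K L 𝔭 := by
  obtain ⟨D, hD, h⟩ := exists_mem_ramified K L
  refine ⟨D, hD, fun 𝔭 _ hp => unram_iff.2 fun P hP h1 σ hσ => ?_⟩
  by_contra hne
  apply hp
  have h2 := h P hP σ hσ hne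
  rw [← h1, Ideal.mem_comap, map_natCast]
  exact h2

/-- **(N5)** -/
theorem N5 : {p : ℕ | p.Prime ∧ ∃ 𝔭 : Ideal (𝓞 K), 𝔭.IsPrime ∧ (p : 𝓞 K) ∈ 𝔭 ∧
    ¬ Unram K L 𝔭}.Finite := by
  obtain ⟨D, hD, h⟩ := exists_unram K L
  apply (Finset.finite_toSet D.primeFactors).subset
  rintro p ⟨hp, 𝔭, h1, h2, h3⟩
  have h4 : (D : 𝓞 K) ∈ 𝔭 := by
    by_contra h5
    exact h3 (h 𝔭 h1 h5)
  rw [Finset.mem_coe, Nat.mem_primeFactors]
  refine ⟨hp, ?_, hD.ne'⟩
  by_contra h5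
  have h6 : Nat.Coprime p D := (Nat.Prime.coprime_iff_not_dvd hp).2 h5
  have h7 : IsCoprime (p : ℤ) (D : ℤ) := Nat.isCoprime_iff_coprime.2 h6
  obtain ⟨a, b, hab⟩ := h7
  apply h1.ne_top
  rw [Ideal.eq_top_iff_one]
  have h8 : ((a * p + b * D : ℤ) : 𝓞 K) = 1 := by rw [hab]; simp
  rw [← h8]
  push_cast
  exact add_mem (Ideal.mul_mem_left _ _ h2) (Ideal.mul_mem_left _ _ h4)

end fin

end Vale.Agent.P022.H374
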