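import Vale.Agent.P022.Iface

/-! Frobenius elements and inertia of a Galois extension of number fields, in the form of
`Iface.lean`. -/

namespace Vale.Agent.P022.H374

open NumberField

open scoped Pointwise

section basic

variable {K L : Type} [Field K] [Field L] [Algebra K L]

/-- `σ` acts on `𝓞 L / P` as the `q`-th power map (`q = 1`: inertia). -/
def PowP (P : Ideal (𝓞 L)) (q : ℕ) (σ : L ≃ₐ[K] L) : Prop :=
  ∀ x : 𝓞 L, ∀ y : 𝓞 L, (y : L) = σ x → y - x ^ q ∈ P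

theorem coe_smul (σ : L ≃ₐ[K] L) (x : 𝓞 L) : ((σ • x : 𝓞 L) : L) = σ x := rfl

theorem eq_smul {σ : L ≃ₐ[K] L} {x y : 𝓞 L} (h : (y : L) = σ x) : y = σ • x :=
  RingOfIntegers.ext h

theorem powP_iff {P : Ideal (𝓞 L)} {q : ℕ} {σ : L ≃ₐ[K] L} :
    PowP P q σ ↔ ∀ x : 𝓞 L, σ • x - x ^ q ∈ P := by
  constructor
  · intro h x
    exact h x _ rfl
  · intro h x y hy
    rw [eq_smul hy]
    exact h x

variable [NumberField K] [NumberField L]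

theorem isFrob_iff {𝔭 : Ideal (𝓞 K)} {σ : L ≃ₐ[K] L} :
    IsFrob K L 𝔭 σ ↔ ∃ P : Ideal (𝓞 L), P.IsPrime ∧
      P.comap (algebraMap (𝓞 K) (𝓞 L)) = 𝔭 ∧ PowP P (Ideal.absNorm 𝔭) σ := Iff.rfl

theorem unram_iff {𝔭 : Ideal (𝓞 K)} :
    Unram K L 𝔭 ↔ ∀ P : Ideal (𝓞 L), P.IsPrime →
      P.comap (algebraMap (𝓞 K) (𝓞 L)) = 𝔭 → ∀ σ : L ≃ₐ[K] L, PowP P 1 σ → σ = 1 := by
  unfold Unram PowP
  simp only [pow_one]

theorem powP_one_iff {P : Ideal (𝓞 L)} {σ : L ≃ₐ[K] L} :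
    PowP P 1 σ ↔ σ ∈ P.inertia (L ≃ₐ[K] L) := by
  rw [powP_iff]
  simp only [pow_one]
  rfl

theorem ne_bot_of_comap {𝔭 : Ideal (𝓞 K)} (h0 : 𝔭 ≠ ⊥) {P : Ideal (𝓞 L)}
    (h : P.comap (algebraMap (𝓞 K) (𝓞 L)) = 𝔭) : P ≠ ⊥ := by
  rintro rfl
  rw [Ideal.comap_bot_of_injective _ (FaithfulSMul.algebraMap_injective (𝓞 K) (𝓞 L))] at h
  exact h0 h.symm

variable (L) in
/-- There is a prime above. -/
theorem exists_above (𝔭 : Ideal (𝓞 K)) [𝔭.IsPrime] : ∃ P : Ideal (𝓞 L), P.IsPrime ∧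
    P.comap (algebraMap (𝓞 K) (𝓞 L)) = 𝔭 := by
  obtain ⟨Q, hQ1, hQ2⟩ := Ideal.exists_ideal_over_prime_of_isIntegral_of_isDomain
    (R := 𝓞 K) (S := 𝓞 L) 𝔭 (by
      rw [(RingHom.injective_iff_ker_eq_bot _).1 (FaithfulSMul.algebraMap_injective (𝓞 K) (𝓞 L))]
      exact bot_le)
  exact ⟨Q, hQ1, hQ2⟩

variable [IsGalois K L]

/-- Frobenius elements exist at every prime of `L`. -/
theorem exists_powP (P : Ideal (𝓞 L)) [P.IsPrime] (h0 : P ≠ ⊥) :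
    ∃ σ : L ≃ₐ[K] L, PowP P (Ideal.absNorm (P.comap (algebraMap (𝓞 K) (𝓞 L)))) σ := by
  have : Finite (𝓞 L ⧸ P) := Ring.HasFiniteQuotients.finiteQuotient h0
  obtain ⟨σ, hσ⟩ := IsArithFrobAt.exists_of_isInvariant (𝓞 K) (L ≃ₐ[K] L) P
  refine ⟨σ, powP_iff.2 fun x => ?_⟩
  exact hσ x

theorem exists_isFrob (𝔭 : Ideal (𝓞 K)) [𝔭.IsPrime] (h0 : 𝔭 ≠ ⊥) :
    ∃ σ : L ≃ₐ[K] L, IsFrob K L 𝔭 σ := by
  obtain ⟨P, hP, h⟩ := exists_above L 𝔭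
  obtain ⟨σ, hσ⟩ := exists_powP (K := K) P (ne_bot_of_comap h0 h)
  rw [h] at hσ
  exact ⟨σ, P, hP, h, hσ⟩

/-- The Galois group is transitive on the primes above `𝔭`. -/
theorem exists_smul_eq {𝔭 : Ideal (𝓞 K)} {P Q : Ideal (𝓞 L)} (hP : P.IsPrime) (hQ : Q.IsPrime)
    (h1 : P.comap (algebraMap (𝓞 K) (𝓞 L)) = 𝔭) (h2 : Q.comap (algebraMap (𝓞 K) (𝓞 L)) = 𝔭) :
    ∃ g : L ≃ₐ[K] L, Q = g • P :=
  Algebra.IsInvariant.exists_smul_of_under_eq (𝓞 K) (𝓞 L) (L ≃ₐ[K] L) P Q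
    (by rw [Ideal.under_def, Ideal.under_def, h1, h2])

omit [NumberField K] [NumberField L] [IsGalois K L] in
theorem powP_conj {P : Ideal (𝓞 L)} {q : ℕ} {σ : L ≃ₐ[K] L} (h : PowP P q σ) (g : L ≃ₐ[K] L) :
    PowP (g • P) q (g * σ * g⁻¹) := by
  rw [powP_iff] at h ⊢
  intro x
  rw [Ideal.pointwise_smul_eq_comap, Ideal.mem_comap]
  simpa [smul_sub, mul_smul] using h (g⁻¹ • x)

/-- If `L/K` is abelian, a Frobenius is a Frobenius at every prime above. -/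
theorem powP_of_isFrob (hab : ∀ σ τ : L ≃ₐ[K] L, σ * τ = τ * σ) {𝔭 : Ideal (𝓞 K)}
    {σ : L ≃ₐ[K] L} (h : IsFrob K L 𝔭 σ) {Q : Ideal (𝓞 L)} (hQ : Q.IsPrime)
    (h2 : Q.comap (algebraMap (𝓞 K) (𝓞 L)) = 𝔭) : PowP Q (Ideal.absNorm 𝔭) σ := by
  obtain ⟨P, hP, h1, h3⟩ := h
  obtain ⟨g, rfl⟩ := exists_smul_eq hP hQ h1 h2
  have := powP_conj h3 g
  rwa [hab g σ, mul_inv_cancel_right] at this

/-- Two Frobenius elements at the same prime differ by inertia. -/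
theorem powP_div {P : Ideal (𝓞 L)} {σ τ : L ≃ₐ[K] L} {q : ℕ} (h1 : PowP P q σ) (h2 : PowP P q τ) :
    PowP P 1 (σ * τ⁻¹) := by
  rw [powP_iff] at *
  intro x
  have := sub_mem (h1 (τ⁻¹ • x)) (h2 (τ⁻¹ • x))
  simpa [mul_smul] using this

/-- Uniqueness of Frobenius. -/
theorem isFrob_unique (hab : ∀ σ τ : L ≃ₐ[K] L, σ * τ = τ * σ) {𝔭 : Ideal (𝓞 K)}
    (hu : Unram K L 𝔭) {σ τ : L ≃ₐ[K] L} (h1 : IsFrob K L 𝔭 σ) (h2 : IsFrob K L 𝔭 τ) : σ = τ := by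
  obtain ⟨P, hP, h3, h4⟩ := h1
  have h5 := powP_of_isFrob hab h2 hP h3
  have h6 := unram_iff.1 hu P hP h3 _ (powP_div h4 h5)
  exact mul_inv_eq_one.1 h6

/-- For abelian extensions, an element of one inertia group is in all of them. -/
theorem powP_of_powP (hab : ∀ σ τ : L ≃ₐ[K] L, σ * τ = τ * σ) {𝔭 : Ideal (𝓞 K)}
    {σ : L ≃ₐ[K] L} {P Q : Ideal (𝓞 L)} (hP : P.IsPrime) (hQ : Q.IsPrime)
    (h1 : P.comap (algebraMap (𝓞 K) (𝓞 L)) = 𝔭)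
    (h2 : Q.comap (algebraMap (𝓞 K) (𝓞 L)) = 𝔭) {q : ℕ} (h : PowP P q σ) : PowP Q q σ := by
  obtain ⟨g, rfl⟩ := exists_smul_eq hP hQ h1 h2
  have := powP_conj h g
  rwa [hab g σ, mul_inv_cancel_right] at this

end basic

end Vale.Agent.P022.H374
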