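import Mathlib

/-! (N1) primes modulo which a given number has order divisible by a given prime power. -/

namespace Vale.Agent.P022.H374

open Finset

theorem one_add_mul_pow (r t : ℤ) (i : ℕ) : r ^ 2 ∣ (1 + r * t) ^ i - 1 - i * (r * t) := by
  induction i with
  | zero => simp
  | succ n ih =>
    obtain ⟨c, hc⟩ := ih
    have h : (1 + r * t) ^ n = 1 + n * (r * t) + r ^ 2 * c := by linarith
    refine ⟨c * (1 + r * t) + n * t ^ 2, ?_⟩
    rw [pow_succ, h]
    push_cast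
    ring

/-- The geometric sum is not divisible by `r ^ 2`. -/
theorem not_sq_dvd_geom {r : ℕ} (hr : r.Prime) {x : ℕ} (hx : r = 2 → ∃ y, x = y ^ 2) :
    ¬ (r : ℤ) ^ 2 ∣ ∑ i ∈ range r, (x : ℤ) ^ i := by
  intro h
  have hr0 : (r : ℤ) ≠ 0 := by exact_mod_cast hr.ne_zero
  have hdvd : (r : ℤ) ∣ ∑ i ∈ range r, (x : ℤ) ^ i := (Dvd.intro_left _ (by ring)).trans h
  -- `x ≡ 1` modulo `r`
  have h1 : (r : ℤ) ∣ (x : ℤ) - 1 := by
    have : Fact r.Prime := ⟨hr⟩
    have h2 : (x : ℤ) ^ r - 1 = (∑ i ∈ range r, (x : ℤ) ^ i) * ((x : ℤ) - 1) := (geom_sum_mul _ _).symm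
    have h3 : (r : ℤ) ∣ (x : ℤ) ^ r - 1 := by
      rw [h2]
      exact hdvd.mul_right _
    have h4 : (r : ℤ) ∣ (x : ℤ) ^ r - x := by
      rw [← Int.modEq_iff_dvd]
      apply Int.ModEq.symm
      rw [← ZMod.intCast_eq_intCast_iff]
      push_cast
      exact ZMod.pow_card _
    have h5 := dvd_sub h3 h4
    have h6 : (x : ℤ) ^ r - 1 - ((x : ℤ) ^ r - x) = x - 1 := by ring
    rwa [h6] at h5
  obtain ⟨t, ht⟩ := h1
  have hx1 : (x : ℤ) = 1 + r * t := by linarith
  have h7 : (r : ℤ) ^ 2 ∣ ∑ i ∈ range r, (x : ℤ) ^ i - ∑ i ∈ range r, (1 + (i : ℤ) * (r * t)) := by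
    rw [← sum_sub_distrib]
    apply dvd_sum
    intro i _
    rw [hx1]
    have := one_add_mul_pow (r : ℤ) t i
    rwa [sub_sub] at this
  have h8 : (r : ℤ) ^ 2 ∣ ∑ i ∈ range r, (1 + (i : ℤ) * (r * t)) := by
    have := dvd_sub h h7
    simpa using this
  rw [sum_add_distrib, ← sum_mul, sum_const, card_range, nsmul_eq_mul, mul_one] at h8
  have h9 : (∑ i ∈ range r, (i : ℤ)) * 2 = r * (r - 1) := by
    have := Finset.sum_range_id_mul_two r
    have h10 : ((∑ i ∈ range r, i : ℕ) : ℤ) * 2 = ((r * (r - 1) : ℕ) : ℤ) := by exact_mod_cast this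
    push_cast at h10
    rw [Nat.cast_sub hr.one_le] at h10
    simpa using h10
  rcases hr.eq_two_or_odd' with h2 | hodd
  · -- `r = 2`
    subst h2
    obtain ⟨y, hy⟩ := hx rfl
    have h10 : ∑ i ∈ range 2, (i : ℤ) = 1 := by simp [sum_range_succ]
    rw [h10] at h8
    have h11 : (y : ℤ) ^ 2 = 1 + 2 * t := by
      have : (x : ℤ) = (y : ℤ) ^ 2 := by exact_mod_cast hy
      rw [← this, hx1]
      push_cast
      ring
    have hyodd : Odd (y : ℤ) := by
      have : Odd ((y : ℤ) ^ 2) := ⟨t, by rw [h11]; ring⟩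
      exact (Int.odd_pow.1 this).resolve_right (by norm_num)
    obtain ⟨z, hz⟩ := hyodd
    rw [hz] at h11
    have h12 : t = 2 * (z ^ 2 + z) := by linarith
    obtain ⟨c, hc⟩ := h8
    push_cast at hc
    omega
  · obtain ⟨m, hm⟩ := hodd
    have hm' : (r : ℤ) = 2 * m + 1 := by exact_mod_cast hm
    have h10 : ∑ i ∈ range r, (i : ℤ) = r * m := by
      have : (r : ℤ) - 1 = 2 * m := by linarith
      rw [this] at h9
      linarith
    rw [h10] at h8
    have h11 : (r : ℤ) ^ 2 ∣ r * m * (r * t) := ⟨m * t, by ring⟩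
    have h12 : (r : ℤ) ^ 2 ∣ r := by
      have := dvd_sub h8 h11
      simpa using this
    rw [sq] at h12
    have h13 : (r : ℤ) ∣ 1 := by
      have h14 : (r : ℤ) * r ∣ r * 1 := by simpa using h12
      exact (mul_dvd_mul_iff_left hr0).1 h14
    have h15 : r ∣ 1 := by exact_mod_cast h13
    exact hr.one_lt.ne' (Nat.dvd_one.1 h15)

/-- For every `k ≥ 2` there is a prime modulo which `a` has order exactly `r ^ k`. -/
theorem exists_prime_orderOf {r : ℕ} (hr : r.Prime) {a : ℕ} (ha : 1 < a) {k : ℕ} (hk : 2 ≤ k) :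
    ∃ q : ℕ, q.Prime ∧ orderOf (a : ZMod q) = r ^ k := by
  obtain ⟨j, rfl⟩ : ∃ j, k = j + 1 := ⟨k - 1, by omega⟩
  set x : ℕ := a ^ r ^ j with hx
  have hx1 : 1 < x := Nat.one_lt_pow (pow_ne_zero _ hr.ne_zero) ha
  set s : ℕ := ∑ i ∈ range r, x ^ i with hs
  have hsr : r < s := by
    have h1 : ∑ i ∈ range r, 1 < ∑ i ∈ range r, x ^ i := by
      apply sum_lt_sum
      · intro i _
        exact Nat.one_le_pow _ _ (by omega)
      · exact ⟨1, mem_range.2 hr.one_lt, by simpa using hx1⟩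
    simpa using h1
  have hns : ¬ r ^ 2 ∣ s := by
    intro h
    have h1 := not_sq_dvd_geom hr (x := x) (by
      intro h2
      refine ⟨a ^ r ^ (j - 1), ?_⟩
      rw [hx, h2, ← pow_mul, ← pow_succ]
      congr 2
      omega)
    apply h1
    rw [hs] at h
    exact_mod_cast h
  -- a prime factor different from `r`
  have hq : ∃ q : ℕ, q.Prime ∧ q ∣ s ∧ q ≠ r := by
    by_contra hcon
    push Not at hcon
    have h1 : s = r ^ s.primeFactorsList.length :=
      Nat.eq_prime_pow_of_unique_prime_dvd (by omega) (fun {d} hd hds => hcon d hd hds)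
    have h2 : s.primeFactorsList.length ≤ 1 := by
      by_contra h3
      apply hns
      rw [h1]
      exact pow_dvd_pow _ (by omega)
    have h4 : s ≤ r := by
      rw [h1]
      calc r ^ s.primeFactorsList.length ≤ r ^ 1 := Nat.pow_le_pow_right hr.pos h2
        _ = r := pow_one r
    omega
  obtain ⟨q, hqp, hqs, hqr⟩ := hq
  have : Fact r.Prime := ⟨hr⟩
  have hqF : Fact q.Prime := ⟨hqp⟩
  refine ⟨q, hqp, ?_⟩
  have hs0 : ((s : ℕ) : ZMod q) = 0 := (ZMod.natCast_eq_zero_iff _ _).2 hqs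
  have hs' : ((s : ℕ) : ZMod q) = ∑ i ∈ range r, (x : ZMod q) ^ i := by
    rw [hs]; push_cast; rfl
  have hxq : (x : ZMod q) = (a : ZMod q) ^ r ^ j := by rw [hx]; push_cast; rfl
  apply orderOf_eq_prime_pow
  · intro h
    rw [← hxq] at h
    rw [hs', h] at hs0
    simp only [one_pow, sum_const, card_range, nsmul_eq_mul, mul_one] at hs0
    rw [ZMod.natCast_eq_zero_iff] at hs0
    exact hqr ((Nat.prime_dvd_prime_iff_eq hqp hr).1 hs0)
  · have h1 : (a : ZMod q) ^ r ^ (j + 1) - 1 = (∑ i ∈ range r, (x : ZMod q) ^ i) * ((x : ZMod q) - 1) := by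
      rw [geom_sum_mul, hxq, ← pow_mul, ← pow_succ]
    rw [← hs', hs0, zero_mul] at h1
    exact sub_eq_zero.1 h1

/-- **(N1)**. -/
theorem N1 {r : ℕ} (hr : r.Prime) (e : ℕ) (S : Finset ℕ) {a : ℕ} (ha : 1 < a) :
    ∃ q : ℕ, q.Prime ∧ q ∉ S ∧ ¬ q ∣ a ∧ r ^ e ∣ orderOf (a : ZMod q) := by
  choose! f hf using fun k (hk : 2 ≤ k) => exists_prime_orderOf hr ha hk
  have hinj : Function.Injective fun k => f (k + (e + 2)) := by
    intro k l hkl
    have h1 := (hf (k + (e + 2)) (by omega)).2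
    have h2 := (hf (l + (e + 2)) (by omega)).2
    have h3 : f (k + (e + 2)) = f (l + (e + 2)) := hkl
    rw [h3, h2] at h1
    have := Nat.pow_right_injective hr.two_le h1
    omega
  obtain ⟨k, hk⟩ : ∃ k, f (k + (e + 2)) ∉ S := by
    by_contra hcon
    push Not at hcon
    exact Set.infinite_of_injective_forall_mem hinj hcon S.finite_toSet
  refine ⟨f (k + (e + 2)), (hf _ (by omega)).1, hk, ?_, ?_⟩
  · intro h
    have h1 := (hf (k + (e + 2)) (by omega)).2
    have h2 : Fact (f (k + (e + 2))).Prime := ⟨(hf _ (by omega)).1⟩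
    rw [(ZMod.natCast_eq_zero_iff _ _).2 h, orderOf_zero] at h1
    exact (pow_ne_zero _ hr.ne_zero) h1.symm
  · rw [(hf (k + (e + 2)) (by omega)).2]
    exact pow_dvd_pow _ (by omega)

end Vale.Agent.P022.H374
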