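import Vale.Agent.P022.H374.Ray
import Vale.Agent.P022.H436.Quad

/-! (N2) norms of totally positive elements of a field of degree at most two. -/

namespace Vale.Agent.P022.H374

open NumberField Polynomial

section norm

variable {K : Type} [Field K] [NumberField K]

/-- A norm value modulo `q` is attained by a totally positive element congruent to one mod `M`. -/
theorem exists_totPos_norm {q M u : ℕ} (hq : q.Prime) (hM : 0 < M) (hqM : ¬ q ∣ M)
    (hu : ¬ q ∣ u) {β : 𝓞 K} (hβ : ((Algebra.norm ℤ β : ℤ) : ZMod q) = u) :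
    ∃ α : 𝓞 K, α ≠ 0 ∧ α - 1 ∈ idl K M ∧ (∀ φ : K →+* ℝ, 0 < φ α) ∧
      ((Ideal.absNorm (Ideal.span {α}) : ℕ) : ZMod q) = u := by
  have hcop : IsCoprime (idl K q) (idl K M) := by
    rw [Ideal.isCoprime_span_singleton_iff]
    have h1 : IsCoprime (q : ℤ) (M : ℤ) :=
      Nat.isCoprime_iff_coprime.2 ((Nat.Prime.coprime_iff_not_dvd hq).2 hqM)
    exact h1.map (Int.castRingHom (𝓞 K))
  have hq0 : idl K q ≠ ⊥ := by
    simpa using hq.ne_zero
  have hM0 : idl K M ≠ ⊥ := by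
    simpa using hM.ne'
  obtain ⟨x, hx1, hx2, hx3⟩ := exists_crt_totPos hcop hq0 hM0 β 1
  have h1 : ((Algebra.norm ℤ x : ℤ) : ZMod q) = u := by rw [norm_congr hx1, hβ]
  have hx0 : x ≠ 0 := by
    rintro rfl
    rw [Algebra.norm_zero, Int.cast_zero] at h1
    exact hu ((ZMod.natCast_eq_zero_iff _ _).1 h1.symm)
  refine ⟨x, hx0, hx2, hx3, ?_⟩
  rw [← h1, ← absNorm_of_totPos hx0 hx3]
  simp

/-- Binary quadratic forms of discriminant prime to `q` represent everything modulo `q`. -/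
theorem exists_form {q : ℕ} (hq : q.Prime) (hq2 : q ≠ 2) {t n : ℤ} (hD : ¬ (q : ℤ) ∣ t ^ 2 - 4 * n)
    (u : ZMod q) : ∃ x y : ZMod q, x ^ 2 + t * x * y + n * y ^ 2 = u := by
  have : Fact q.Prime := ⟨hq⟩
  set Δ : ZMod q := ((t ^ 2 - 4 * n : ℤ) : ZMod q) with hΔ
  have hΔ0 : Δ ≠ 0 := by
    rw [hΔ, Ne, ZMod.intCast_zmod_eq_zero_iff_dvd]
    exact hD
  have h2 : (2 : ZMod q) ≠ 0 := by
    intro h
    have h3 : ((2 : ℕ) : ZMod q) = 0 := by exact_mod_cast h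
    rw [ZMod.natCast_eq_zero_iff] at h3
    exact hq2 ((Nat.prime_dvd_prime_iff_eq hq Nat.prime_two).1 h3)
  obtain ⟨a, b, hab⟩ := FiniteField.exists_root_sum_quadratic
    (f := (X ^ 2 - C (4 * u) : (ZMod q)[X])) (g := C (-Δ) * X ^ 2)
    (by rw [degree_X_pow_sub_C (by norm_num)]; rfl)
    (by rw [degree_C_mul_X_pow _ (neg_ne_zero.2 hΔ0)]; rfl)
    (by rw [ZMod.card]; exact hq.eq_two_or_odd.resolve_left hq2)
  simp only [eval_sub, eval_pow, eval_X, eval_C, eval_mul] at hab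
  refine ⟨(a - t * b) / 2, b, ?_⟩
  have h4 : (4 : ZMod q) ≠ 0 := by
    have : (4 : ZMod q) = 2 * 2 := by norm_num
    rw [this]
    exact mul_ne_zero h2 h2
  apply mul_left_cancel₀ h4
  have h5 : Δ = (t : ZMod q) ^ 2 - 4 * n := by rw [hΔ]; push_cast; ring
  rw [h5] at hab
  have h6 : (4 : ZMod q) * (((a - t * b) / 2) ^ 2 + t * ((a - t * b) / 2) * b + n * b ^ 2) =
      (a - t * b) ^ 2 + 2 * t * (a - t * b) * b + 4 * n * b ^ 2 := by
    field_simp
    ring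
  rw [h6]
  linear_combination hab

/-- **(N2)** -/
theorem N2 (hK : Module.finrank ℚ K ≤ 2) : ∃ D : ℕ, 0 < D ∧ ∀ q : ℕ, q.Prime → ¬ q ∣ D →
    ∀ M : ℕ, 0 < M → ¬ q ∣ M → ∀ u : ℕ, ¬ q ∣ u →
    ∃ α : 𝓞 K, α ≠ 0 ∧ α - 1 ∈ idl K M ∧ (∀ φ : K →+* ℝ, 0 < φ α) ∧
      ((Ideal.absNorm (Ideal.span {α}) : ℕ) : ZMod q) = u := by
  have hpos : 0 < Module.finrank ℚ K := Module.finrank_pos
  interval_cases hfr : Module.finrank ℚ K
  · refine ⟨1, one_pos, fun q hq _ M hM hqM u hu => ?_⟩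
    apply exists_totPos_norm hq hM hqM hu (β := (u : 𝓞 K))
    have h1 := Algebra.norm_algebraMap (R := ℤ) (S := 𝓞 K) (u : ℤ)
    rw [RingOfIntegers.rank, hfr, pow_one] at h1
    have h2 : algebraMap ℤ (𝓞 K) (u : ℤ) = (u : 𝓞 K) := by simp
    rw [h2] at h1
    rw [h1]
    simp
  · obtain ⟨Q⟩ := H436.exists_QD hfr
    have hdisc : Q.t ^ 2 - 4 * Q.n ≠ 0 := by
      rw [← Q.discr_eq]
      exact discr_ne_zero K
    refine ⟨2 * (Q.t ^ 2 - 4 * Q.n).natAbs, ?_, fun q hq hqD M hM hqM u hu => ?_⟩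
    · have := Int.natAbs_pos.2 hdisc
      omega
    · have hq2 : q ≠ 2 := by
        rintro rfl
        exact hqD (dvd_mul_right _ _)
      have hqd : ¬ (q : ℤ) ∣ Q.t ^ 2 - 4 * Q.n := by
        intro h
        apply hqD
        apply dvd_mul_of_dvd_right
        exact Int.natCast_dvd.1 h
      obtain ⟨x, y, hxy⟩ := exists_form hq hq2 hqd (u : ZMod q)
      have : Fact q.Prime := ⟨hq⟩
      apply exists_totPos_norm hq hM hqM hu (β := ((x.val : ℤ) : 𝓞 K) + ((y.val : ℤ) : 𝓞 K) * Q.w)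
      rw [Q.norm_mk, ← hxy]
      push_cast
      rw [ZMod.natCast_zmod_val, ZMod.natCast_zmod_val]

end norm

end Vale.Agent.P022.H374
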