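import Vale.Agent.P022.Iface

/-! Totally positive elements: positivity of the norm, existence of totally positive
representatives, norms of elements congruent to one. -/

namespace Vale.Agent.P022.H374

open NumberField

section pos

variable {K : Type} [Field K] [NumberField K]

open NumberField.InfinitePlace in
/-- The norm of a totally positive element is positive. -/
theorem norm_pos_of_totPos {x : K} (hx0 : x ≠ 0) (hx : ∀ φ : K →+* ℝ, 0 < φ x) :
    0 < Algebra.norm ℚ x := by
  classical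
  have key : ∃ r : ℝ, 0 < r ∧ ∏ φ : K →+* ℂ, φ x = (r : ℂ) := by
    have hfib : ∀ w : InfinitePlace K, ∃ r : ℝ, 0 < r ∧
        ∏ φ ∈ ({φ | InfinitePlace.mk φ = w} : Finset (K →+* ℂ)), φ x = (r : ℂ) := by
      intro w
      have hset : ({φ | InfinitePlace.mk φ = w} : Finset (K →+* ℂ)) =
          {w.embedding, ComplexEmbedding.conjugate w.embedding} := by
        ext φ
        simp only [Finset.mem_filter, Finset.mem_univ, true_and, Finset.mem_insert,
          Finset.mem_singleton]
        conv_lhs => rw [← mk_embedding w]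
        rw [eq_comm, mk_eq_iff, eq_comm, eq_comm (a := φ) (b := ComplexEmbedding.conjugate _)]
      by_cases hw : IsReal w
      · obtain ⟨ψ, hψ⟩ : ∃ ψ : K →+* ℝ, ∀ y, w.embedding y = (ψ y : ℂ) := by
          refine ⟨(isReal_iff.1 hw).embedding, fun y => ?_⟩
          exact (ComplexEmbedding.IsReal.coe_embedding_apply (isReal_iff.1 hw) y).symm
        refine ⟨ψ x, hx ψ, ?_⟩
        rw [hset, conjugate_embedding_eq_of_isReal hw, Finset.pair_eq_singleton,
          Finset.prod_singleton, hψ]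
      · refine ⟨Complex.normSq (w.embedding x), ?_, ?_⟩
        · rw [Complex.normSq_pos]
          exact (map_ne_zero _).2 hx0
        · have hne : w.embedding ≠ ComplexEmbedding.conjugate w.embedding := by
            intro h
            apply hw
            rw [isReal_iff, ComplexEmbedding.isReal_iff]
            exact h.symm
          rw [hset, Finset.prod_pair hne, ComplexEmbedding.conjugate_coe_eq, Complex.mul_conj]
    choose r hr0 hr using hfib
    refine ⟨∏ w, r w, Finset.prod_pos fun w _ => hr0 w, ?_⟩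
    rw [← Finset.prod_fiberwise Finset.univ InfinitePlace.mk (fun φ : K →+* ℂ => φ x)]
    push_cast
    exact Finset.prod_congr rfl fun w _ => hr w
  obtain ⟨r, hr0, hr⟩ := key
  have h1 := Algebra.norm_eq_prod_embeddings ℚ ℂ x
  rw [← Fintype.prod_equiv (RingHom.equivRatAlgHom K ℂ) (fun f => f x)
      (fun φ => φ x) fun _ => by simp [RingHom.equivRatAlgHom_apply], hr] at h1
  rw [eq_ratCast] at h1
  have h2 : ((Algebra.norm ℚ x : ℚ) : ℝ) = r := by exact_mod_cast h1
  have h3 : (0 : ℝ) < ((Algebra.norm ℚ x : ℚ) : ℝ) := by rw [h2]; exact hr0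
  exact_mod_cast h3

theorem intNorm_pos_of_totPos {x : 𝓞 K} (hx0 : x ≠ 0) (hx : ∀ φ : K →+* ℝ, 0 < φ x) :
    0 < Algebra.norm ℤ x := by
  have h1 := norm_pos_of_totPos (x := (x : K)) (fun h => hx0 (RingOfIntegers.ext h)) hx
  rw [← Algebra.coe_norm_int] at h1
  exact_mod_cast h1

/-- For a totally positive element the absolute norm of the ideal is the norm. -/
theorem absNorm_of_totPos {x : 𝓞 K} (hx0 : x ≠ 0) (hx : ∀ φ : K →+* ℝ, 0 < φ x) :
    ((Ideal.absNorm (Ideal.span {x}) : ℕ) : ℤ) = Algebra.norm ℤ x := by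
  rw [Ideal.absNorm_span_singleton, Int.natAbs_of_nonneg (intNorm_pos_of_totPos hx0 hx).le]

/-- Norms of congruent elements are congruent. -/
theorem norm_congr {n : ℕ} {x y : 𝓞 K} (h : x - y ∈ idl K n) :
    ((Algebra.norm ℤ x : ℤ) : ZMod n) = ((Algebra.norm ℤ y : ℤ) : ZMod n) := by
  classical
  obtain ⟨z, hz⟩ := Ideal.mem_span_singleton'.1 h
  let b := RingOfIntegers.basis K
  rw [Algebra.norm_eq_matrix_det b, Algebra.norm_eq_matrix_det b]
  have h1 : ∀ A : Matrix (Module.Free.ChooseBasisIndex ℤ (𝓞 K))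
      (Module.Free.ChooseBasisIndex ℤ (𝓞 K)) ℤ,
      ((A.det : ℤ) : ZMod n) = ((Int.castRingHom (ZMod n)).mapMatrix A).det := by
    intro A
    rw [← RingHom.map_det]
    rfl
  rw [h1, h1]
  congr 1
  have h2 : x = y + n • z := by
    rw [nsmul_eq_mul]
    have h3 : ((n : ℤ) : 𝓞 K) = (n : 𝓞 K) := Int.cast_natCast n
    rw [h3] at hz
    linear_combination -hz
  rw [h2, map_add, map_nsmul, map_add, map_nsmul]
  ext i j
  simp

/-- The norm of a totally positive element congruent to one. -/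
theorem absNorm_cast_eq_one {n : ℕ} {x : 𝓞 K} (hx0 : x ≠ 0) (h : x - 1 ∈ idl K n)
    (hx : ∀ φ : K →+* ℝ, 0 < φ x) :
    ((Ideal.absNorm (Ideal.span {x}) : ℕ) : ZMod n) = 1 := by
  have h1 := absNorm_of_totPos hx0 hx
  have h2 := norm_congr h
  rw [← h1, map_one] at h2
  simpa using h2

/-- Adding a large multiple of a positive integer makes an element totally positive. -/
theorem exists_add_totPos (x : 𝓞 K) {m : ℕ} (hm : 0 < m) :
    ∃ k : ℕ, ∀ φ : K →+* ℝ, 0 < φ ((x + (k * m : ℕ) : 𝓞 K) : K) := by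
  have h : ∀ φ : K →+* ℝ, ∃ k : ℕ, - φ (x : K) < k := fun φ => exists_nat_gt _
  choose k hk using h
  refine ⟨∑ φ, k φ, fun φ => ?_⟩
  have h1 : (k φ : ℝ) ≤ ((∑ ψ, k ψ : ℕ) : ℝ) := by
    exact_mod_cast Finset.single_le_sum (fun _ _ => Nat.zero_le _) (Finset.mem_univ φ)
  have h2 : ((∑ ψ, k ψ : ℕ) : ℝ) ≤ ((∑ ψ, k ψ : ℕ) : ℝ) * m := by
    apply le_mul_of_one_le_right (Nat.cast_nonneg _)
    exact_mod_cast hm
  have h3 : φ ((x + (((∑ ψ, k ψ) * m : ℕ) : 𝓞 K) : 𝓞 K) : K) =
      φ (x : K) + ((∑ ψ, k ψ : ℕ) : ℝ) * m := by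
    push_cast
    rw [map_add, map_mul, map_sum]
    simp
  rw [h3]
  have := hk φ
  linarith

end pos

end Vale.Agent.P022.H374
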