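import Vale.Agent.P022.H374.Pos
import Vale.Agent.P022.H116.Spec

/-! (N3) ray class characters trivial almost everywhere; (N6) characters of the norm. -/

namespace Vale.Agent.P022.H374

open NumberField UniqueFactorizationMonoid
open Vale.Agent.P022.CFT (evI IsRC)

section ray

variable {K : Type} [Field K] [NumberField K] {A : Type*} [CommGroup A]

theorem evI_mul (Y : Ideal (𝓞 K) → A) {I J : Ideal (𝓞 K)} (hI : I ≠ ⊥) (hJ : J ≠ ⊥) :
    evI Y (I * J) = evI Y I * evI Y J := by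
  unfold evI
  rw [normalizedFactors_mul hI hJ, Multiset.map_add, Multiset.prod_add]

theorem evI_prime (Y : Ideal (𝓞 K) → A) {P : Ideal (𝓞 K)} (hP : P.IsPrime) (h0 : P ≠ ⊥) :
    evI Y P = Y P := by
  unfold evI
  rw [normalizedFactors_irreducible (Ideal.prime_of_isPrime h0 hP).irreducible, normalize_eq]
  simp

theorem evI_one (Y : Ideal (𝓞 K) → A) : evI Y 1 = 1 := by
  unfold evI
  rw [normalizedFactors_one]
  simp

/-- `evI` only depends on the values at the prime factors. -/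
theorem evI_congr {Y Z : Ideal (𝓞 K) → A} {I : Ideal (𝓞 K)}
    (h : ∀ P ∈ normalizedFactors I, Y P = Z P) : evI Y I = evI Z I := by
  unfold evI
  rw [Multiset.map_congr rfl h]

theorem evI_eq_one {Y : Ideal (𝓞 K) → A} {I : Ideal (𝓞 K)}
    (h : ∀ P ∈ normalizedFactors I, Y P = 1) : evI Y I = 1 := by
  unfold evI
  exact Multiset.prod_eq_one (by
    intro x hx
    obtain ⟨P, hP, rfl⟩ := Multiset.mem_map.1 hx
    exact h P hP)

theorem mem_factors_isPrime {I P : Ideal (𝓞 K)} (h : P ∈ normalizedFactors I) :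
    P.IsPrime ∧ P ≠ ⊥ ∧ I ≤ P := by
  have h1 := prime_of_normalized_factor P h
  exact ⟨Ideal.isPrime_of_prime h1, h1.ne_zero, Ideal.le_of_dvd (dvd_of_mem_normalizedFactors h)⟩

/-- The prime factors of an element congruent to one modulo `n` do not contain `n`. -/
theorem natCast_notMem {n : ℕ} {x : 𝓞 K} (h : x - 1 ∈ idl K n) {P : Ideal (𝓞 K)}
    (hP : P ∈ normalizedFactors (Ideal.span {x})) : (n : 𝓞 K) ∉ P := by
  obtain ⟨h1, -, h2⟩ := mem_factors_isPrime hP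
  intro h3
  have h4 : x ∈ P := h2 (Ideal.mem_span_singleton_self x)
  have h5 : idl K n ≤ P := by
    rw [Ideal.span_singleton_le_iff_mem]
    simpa using h3
  have h6 := sub_mem h4 (h5 h)
  rw [sub_sub_cancel] at h6
  exact h1.ne_top ((Ideal.eq_top_iff_one _).2 h6)

/-- **(N6)** The functions `w0 ∘ N` are narrow ray class characters. -/
theorem N6 {n : ℕ} (w0 : (ZMod n)ˣ →* A) (Y : Ideal (𝓞 K) → A)
    (hY : ∀ 𝔭 : Ideal (𝓞 K), 𝔭.IsPrime → 𝔭 ≠ ⊥ → (n : 𝓞 K) ∉ 𝔭 →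
      ∀ u : (ZMod n)ˣ, (u : ZMod n) = ((Ideal.absNorm 𝔭 : ℕ) : ZMod n) → Y 𝔭 = w0 u) :
    IsRC n Y := by
  classical
  intro α hα0 hα hpos
  set I : Ideal (𝓞 K) := Ideal.span {α} with hI
  have hI0 : I ≠ ⊥ := by
    rw [hI]
    simpa using hα0
  have h1 : ((Ideal.absNorm I : ℕ) : ZMod n) = 1 := absNorm_cast_eq_one hα0 hα hpos
  -- the units
  have hunit : ∀ P ∈ normalizedFactors I, IsUnit ((Ideal.absNorm P : ℕ) : ZMod n) := by
    intro P hP
    obtain ⟨J, hJ⟩ := dvd_of_mem_normalizedFactors hP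
    apply IsUnit.of_mul_eq_one ((Ideal.absNorm J : ℕ) : ZMod n)
    rw [← Nat.cast_mul, ← map_mul, ← hJ, h1]
  let u : Ideal (𝓞 K) → (ZMod n)ˣ := fun P =>
    if h : IsUnit ((Ideal.absNorm P : ℕ) : ZMod n) then h.unit else 1
  have hu : ∀ P ∈ normalizedFactors I, ((u P : (ZMod n)ˣ) : ZMod n) = ((Ideal.absNorm P : ℕ) : ZMod n) := by
    intro P hP
    simp only [u, dif_pos (hunit P hP), IsUnit.unit_spec]
  have h2 : evI Y I = evI (fun P => w0 (u P)) I := by
    apply evI_congr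
    intro P hP
    obtain ⟨h3, h4, -⟩ := mem_factors_isPrime hP
    exact hY P h3 h4 (natCast_notMem hα hP) _ (hu P hP)
  rw [h2]
  unfold evI
  have h5 : ((normalizedFactors I).map fun P => w0 (u P)).prod =
      w0 ((normalizedFactors I).map u).prod := by
    rw [map_multiset_prod, Multiset.map_map]
    rfl
  rw [h5]
  have h6 : ((normalizedFactors I).map u).prod = 1 := by
    apply Units.ext
    rw [Units.val_one, ← Units.coeHom_apply, map_multiset_prod, Multiset.map_map]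
    have h7 : (normalizedFactors I).map (⇑(Units.coeHom (ZMod n)) ∘ u) =
        (normalizedFactors I).map (fun P => ((Ideal.absNorm P : ℕ) : ZMod n)) :=
      Multiset.map_congr rfl fun P hP => hu P hP
    rw [h7]
    have h8 : ((Nat.castRingHom (ZMod n)).toMonoidHom.comp
        (Ideal.absNorm (S := 𝓞 K)).toMonoidHom) (normalizedFactors I).prod = 1 := by
      have h9 : (normalizedFactors I).prod = I := by
        have := prod_normalizedFactors hI0
        exact associated_iff_eq.1 this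
      rw [h9]
      exact h1
    rw [map_multiset_prod] at h8
    exact h8
  rw [h6, map_one]

omit [NumberField K] in
theorem sup_eq_top {𝔭 J : Ideal (𝓞 K)} (hmax : 𝔭.IsMaximal) (h : ¬ J ≤ 𝔭) : IsCoprime 𝔭 J := by
  rw [Ideal.isCoprime_iff_sup_eq]
  by_contra hne
  have h1 := hmax.eq_of_le hne le_sup_left
  apply h
  rw [h1]
  exact le_sup_right

omit [NumberField K] in
/-- Chinese remainder theorem for two coprime ideals. -/
theorem exists_crt {I J : Ideal (𝓞 K)} (h : IsCoprime I J) (a b : 𝓞 K) :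
    ∃ x : 𝓞 K, x - a ∈ I ∧ x - b ∈ J := by
  obtain ⟨i, hi, j, hj, hij⟩ := Ideal.isCoprime_iff_exists.1 h
  refine ⟨a * j + b * i, ?_, ?_⟩
  · have : a * j + b * i - a = (b - a) * i := by linear_combination a * hij
    rw [this]
    exact I.mul_mem_left _ hi
  · have : a * j + b * i - b = (a - b) * j := by linear_combination b * hij
    rw [this]
    exact J.mul_mem_left _ hj

/-- Chinese remainder theorem with total positivity. -/
theorem exists_crt_totPos {I J : Ideal (𝓞 K)} (h : IsCoprime I J) (hI : I ≠ ⊥) (hJ : J ≠ ⊥)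
    (a b : 𝓞 K) :
    ∃ x : 𝓞 K, x - a ∈ I ∧ x - b ∈ J ∧ ∀ φ : K →+* ℝ, 0 < φ x := by
  obtain ⟨x, h1, h2⟩ := exists_crt h a b
  have hIJ : I * J ≠ ⊥ := mul_ne_zero hI hJ
  obtain ⟨m, hm0, hmem⟩ : ∃ m : ℕ, 0 < m ∧ (m : 𝓞 K) ∈ I * J :=
    ⟨Ideal.absNorm (I * J), Nat.pos_of_ne_zero (fun h0 => hIJ (Ideal.absNorm_eq_zero_iff.1 h0)),
      Ideal.absNorm_mem _⟩
  have hle1 : I * J ≤ I := Ideal.mul_le_left
  have hle2 : I * J ≤ J := Ideal.mul_le_right
  have hmI : (m : 𝓞 K) ∈ I := hle1 hmem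
  have hmJ : (m : 𝓞 K) ∈ J := hle2 hmem
  obtain ⟨k, hk⟩ := exists_add_totPos x hm0
  refine ⟨x + ((k * m : ℕ) : 𝓞 K), ?_, ?_, hk⟩
  · have h3 : x + ((k * m : ℕ) : 𝓞 K) - a = (x - a) + (k : 𝓞 K) * (m : 𝓞 K) := by push_cast; ring
    rw [h3]
    exact add_mem h1 (Ideal.mul_mem_left I _ hmI)
  · have h3 : x + ((k * m : ℕ) : 𝓞 K) - b = (x - b) + (k : 𝓞 K) * (m : 𝓞 K) := by push_cast; ring
    rw [h3]
    exact add_mem h2 (Ideal.mul_mem_left J _ hmJ)

/-- **(N3)** A narrow ray class character which is trivial at almost all primes is trivial. -/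
theorem N3 {M : ℕ} {Y : Ideal (𝓞 K) → A} (hY : IsRC M Y)
    (hfin : {𝔭 : Ideal (𝓞 K) | 𝔭.IsPrime ∧ 𝔭 ≠ ⊥ ∧ Y 𝔭 ≠ 1}.Finite)
    {𝔭 : Ideal (𝓞 K)} (hp : 𝔭.IsPrime) (hp0 : 𝔭 ≠ ⊥) (hM : (M : 𝓞 K) ∉ 𝔭) : Y 𝔭 = 1 := by
  classical
  set S : Finset (Ideal (𝓞 K)) := hfin.toFinset.erase 𝔭 with hS
  have hSmem : ∀ P, P ∈ S ↔ P ≠ 𝔭 ∧ P.IsPrime ∧ P ≠ ⊥ ∧ Y P ≠ 1 := by
    intro P
    rw [hS, Finset.mem_erase, Set.Finite.mem_toFinset]
    rfl
  set J : Ideal (𝓞 K) := idl K M * ∏ P ∈ S, P with hJ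
  have hmax : 𝔭.IsMaximal := hp.isMaximal hp0
  have hM0 : M ≠ 0 := by
    rintro rfl
    simp at hM
  have hcop : IsCoprime (𝔭 ^ 2) J := by
    apply IsCoprime.pow_left
    rw [hJ]
    apply IsCoprime.mul_right
    · apply sup_eq_top hmax
      rw [Ideal.span_singleton_le_iff_mem]
      simpa using hM
    · apply IsCoprime.prod_right
      intro P hP
      obtain ⟨h1, h2, h3, -⟩ := (hSmem P).1 hP
      apply sup_eq_top hmax
      intro h4
      exact h1 ((h2.isMaximal h3).eq_of_le hmax.ne_top h4)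
  have hp2 : 𝔭 ^ 2 ≠ ⊥ := pow_ne_zero 2 hp0
  have hJ0 : J ≠ ⊥ := by
    rw [hJ]
    apply mul_ne_zero
    · simpa using hM0
    · rw [Finset.prod_ne_zero_iff]
      intro P hP
      exact ((hSmem P).1 hP).2.2.1
  -- an element of `𝔭` not in `𝔭 ^ 2`
  obtain ⟨π, hπ1, hπ2⟩ : ∃ π : 𝓞 K, π ∈ 𝔭 ∧ π ∉ 𝔭 ^ 2 := by
    have h1 : 𝔭 ^ 2 < 𝔭 := Ideal.pow_lt_self 𝔭 hp0 hmax.ne_top 2 le_rfl
    exact SetLike.exists_of_lt h1
  obtain ⟨x, hx1, hx2, hx3⟩ := exists_crt_totPos hcop hp2 hJ0 π 1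
  have hxp : x ∈ 𝔭 := by
    have hle : 𝔭 ^ 2 ≤ 𝔭 := Ideal.pow_le_self (by norm_num : (2 : ℕ) ≠ 0)
    have h1 : x - π ∈ 𝔭 := hle hx1
    have h2 := add_mem h1 hπ1
    simpa using h2
  have hxp2 : x ∉ 𝔭 ^ 2 := by
    intro h1
    apply hπ2
    have h2 := sub_mem h1 hx1
    simpa using h2
  have hx0 : x ≠ 0 := by
    rintro rfl
    exact hxp2 (zero_mem _)
  have hJM : J ≤ idl K M := by
    rw [hJ]
    exact Ideal.mul_le_left
  have h1 := hY x hx0 (hJM hx2) hx3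
  have hspan : Ideal.span {x} ≠ ⊥ := by simpa using hx0
  obtain ⟨I, hI⟩ : 𝔭 ∣ Ideal.span {x} := Ideal.dvd_span_singleton.2 hxp
  have hI0 : I ≠ ⊥ := by
    rintro rfl
    rw [Ideal.mul_bot] at hI
    exact hspan hI
  rw [hI, evI_mul Y hp0 hI0, evI_prime Y hp hp0] at h1
  have h2 : evI Y I = 1 := by
    apply evI_eq_one
    intro P hP
    obtain ⟨h3, h4, h5⟩ := mem_factors_isPrime hP
    by_contra hne
    have hxP : x ∈ P := by
      have h6 : Ideal.span {x} ≤ P := by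
        rw [hI]
        exact Ideal.mul_le_right.trans h5
      exact h6 (Ideal.mem_span_singleton_self x)
    by_cases hPp : P = 𝔭
    · subst hPp
      apply hxp2
      have h6 : Ideal.span {x} ≤ P ^ 2 := by
        rw [hI, sq]
        exact Ideal.mul_mono_right h5
      exact h6 (Ideal.mem_span_singleton_self x)
    · have hPS : P ∈ S := (hSmem P).2 ⟨hPp, h3, h4, hne⟩
      have h6 : J ≤ P := by
        rw [hJ]
        refine Ideal.mul_le_right.trans (Ideal.prod_le_inf.trans ?_)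
        exact Finset.inf_le hPS
      have h7 := sub_mem hxP (h6 hx2)
      rw [sub_sub_cancel] at h7
      exact h3.ne_top ((Ideal.eq_top_iff_one _).2 h7)
  rwa [h2, mul_one] at h1

end ray

end Vale.Agent.P022.H374
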