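import Vale.Agent.P022.H374.Frob

/-! Restriction of Frobenius elements and of inertia to normal subextensions. -/

namespace Vale.Agent.P022.H374

open NumberField

open scoped Pointwise

section tower

variable {K F L : Type} [Field K] [Field F] [Field L] [Algebra K F] [Algebra F L] [Algebra K L]
  [IsScalarTower K F L]

theorem comap_comap_tower (P : Ideal (𝓞 L)) :
    (P.comap (algebraMap (𝓞 F) (𝓞 L))).comap (algebraMap (𝓞 K) (𝓞 F)) =
      P.comap (algebraMap (𝓞 K) (𝓞 L)) := by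
  rw [Ideal.comap_comap]
  have h : (algebraMap (𝓞 F) (𝓞 L)).comp (algebraMap (𝓞 K) (𝓞 F)) = algebraMap (𝓞 K) (𝓞 L) := by
    ext x
    exact (IsScalarTower.algebraMap_apply K F L (x : K)).symm
  rw [h]

variable [Normal K F]

variable (F) in
theorem restrictNormal_smul (σ : L ≃ₐ[K] L) (x : 𝓞 F) :
    algebraMap (𝓞 F) (𝓞 L) (σ.restrictNormal F • x) = σ • algebraMap (𝓞 F) (𝓞 L) x := by
  apply RingOfIntegers.ext
  exact AlgEquiv.restrictNormal_commutes σ F (x : F)

variable (F) in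
theorem powP_restrict {P : Ideal (𝓞 L)} {q : ℕ} {σ : L ≃ₐ[K] L} (h : PowP P q σ) :
    PowP (P.comap (algebraMap (𝓞 F) (𝓞 L))) q (σ.restrictNormal F) := by
  rw [powP_iff] at h ⊢
  intro x
  rw [Ideal.mem_comap, map_sub, map_pow, restrictNormal_smul]
  exact h _

variable [NumberField K] [NumberField F] [NumberField L]

variable (F) in
/-- A Frobenius restricts to a Frobenius. -/
theorem isFrob_restrict {𝔭 : Ideal (𝓞 K)} {σ : L ≃ₐ[K] L} (h : IsFrob K L 𝔭 σ) :
    IsFrob K F 𝔭 (σ.restrictNormal F) := by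
  obtain ⟨P, hP, h1, h2⟩ := h
  refine ⟨P.comap (algebraMap (𝓞 F) (𝓞 L)), hP.comap _, ?_, powP_restrict F h2⟩
  rw [comap_comap_tower, h1]

omit [NumberField K] in
/-- Inertia lifts: an element of an inertia group of `F/K` is the restriction of an element of the
inertia group of `L/K` at any prime above. -/
theorem exists_lift_inertia [IsGalois K L] [IsGalois F L] {P : Ideal (𝓞 L)} (hP : P.IsPrime)
    {σ : F ≃ₐ[K] F} (h : PowP (P.comap (algebraMap (𝓞 F) (𝓞 L))) 1 σ) :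
    ∃ τ : L ≃ₐ[K] L, PowP P 1 τ ∧ τ.restrictNormal F = σ := by
  set PF := P.comap (algebraMap (𝓞 F) (𝓞 L)) with hPF
  have hover : P.LiesOver PF := ⟨rfl⟩
  -- a lift
  obtain ⟨τ0, hτ0⟩ := AlgEquiv.restrictNormalHom_surjective (F := K) (K₁ := F) L σ
  have hτ0' : τ0.restrictNormal F = σ := hτ0
  -- `F`-automorphisms as `K`-automorphisms
  have hres : ∀ g : L ≃ₐ[F] L, (g.restrictScalars K).restrictNormal F = 1 := by
    intro g
    ext x
    apply (algebraMap F L).injective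
    rw [AlgEquiv.restrictNormal_commutes]
    simp
  have hresact : ∀ (g : L ≃ₐ[F] L) (x : 𝓞 L), (g.restrictScalars K) • x = g • x := fun g x => rfl
  -- `σ` fixes `PF`
  have h1 : ∀ x : 𝓞 F, σ • x - x ∈ PF := by
    intro x
    have := powP_iff.1 h x
    rwa [pow_one] at this
  have h2 : (τ0 • P).comap (algebraMap (𝓞 F) (𝓞 L)) = PF := by
    ext x
    rw [Ideal.mem_comap, Ideal.mem_pointwise_smul_iff_inv_smul_mem]
    have h3 : τ0⁻¹ • algebraMap (𝓞 F) (𝓞 L) x = algebraMap (𝓞 F) (𝓞 L) (σ⁻¹ • x) := by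
      rw [inv_smul_eq_iff, ← restrictNormal_smul, hτ0', smul_inv_smul]
    rw [h3, ← Ideal.mem_comap, ← hPF]
    have h4 := h1 (σ⁻¹ • x)
    rw [smul_inv_smul] at h4
    constructor
    · intro h5
      have := add_mem h4 h5
      simpa using this
    · intro h5
      have := sub_mem h5 h4
      simpa using this
  have hP0 : (τ0 • P).IsPrime := inferInstance
  obtain ⟨g, hg⟩ := Algebra.IsInvariant.exists_smul_of_under_eq (𝓞 F) (𝓞 L) (L ≃ₐ[F] L) (τ0 • P) P
    (by rw [Ideal.under_def, Ideal.under_def, h2])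
  set τ1 : L ≃ₐ[K] L := g.restrictScalars K * τ0 with hτ1
  have h5 : τ1 • P = P := by
    rw [hτ1, mul_smul]
    exact hg.symm
  have hmul : ∀ a b : L ≃ₐ[K] L, (a * b).restrictNormal F = a.restrictNormal F * b.restrictNormal F :=
    fun a b => map_mul (AlgEquiv.restrictNormalHom F) a b
  have h6 : τ1.restrictNormal F = σ := by
    rw [hτ1, hmul, hres, one_mul, hτ0']
  -- action of `τ1` on the residue field
  let e : (𝓞 L ⧸ P) ≃+* (𝓞 L ⧸ P) := Ideal.quotientEquiv P P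
    (MulSemiringAction.toRingEquiv (L ≃ₐ[K] L) (𝓞 L) τ1) (by
      conv_lhs => rw [← h5]
      rfl)
  have he : ∀ x : 𝓞 L, e (Ideal.Quotient.mk P x) = Ideal.Quotient.mk P (τ1 • x) := fun x => rfl
  let e' : (𝓞 L ⧸ P) ≃ₐ[𝓞 F ⧸ PF] (𝓞 L ⧸ P) := AlgEquiv.ofRingEquiv (f := e) (by
    intro r
    obtain ⟨x, rfl⟩ := Ideal.Quotient.mk_surjective r
    rw [Ideal.Quotient.algebraMap_mk_of_liesOver, he, Ideal.Quotient.eq]
    rw [← restrictNormal_smul, h6, ← map_sub, ← Ideal.mem_comap]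
    exact h1 x)
  obtain ⟨g2, hg2⟩ := Ideal.Quotient.stabilizerHom_surjective (L ≃ₐ[F] L) PF P e'
  refine ⟨(g2 : L ≃ₐ[F] L)⁻¹.restrictScalars K * τ1, ?_, ?_⟩
  · rw [powP_iff]
    intro x
    rw [pow_one, mul_smul, hresact, ← Ideal.Quotient.eq]
    have h7 := Ideal.Quotient.stabilizerHom_apply P PF (L ≃ₐ[F] L) g2⁻¹ (τ1 • x)
    have h8 : Ideal.Quotient.mk P ((g2 : L ≃ₐ[F] L)⁻¹ • (τ1 • x)) =
        Ideal.Quotient.mk P (g2⁻¹ • (τ1 • x)) := rfl
    rw [h8, ← h7, map_inv, hg2]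
    have h9 : e' (Ideal.Quotient.mk P x) = Ideal.Quotient.mk P (τ1 • x) := he x
    rw [← h9]
    exact AlgEquiv.symm_apply_apply e' _
  · rw [hmul, hres, one_mul, h6]

/-- An extension unramified at `𝔭` has subextensions unramified at `𝔭`. -/
theorem unram_sub (F : Type) [Field F] [NumberField F] [Algebra K F] [Algebra F L]
    [IsScalarTower K F L] [IsGalois K F] [IsGalois K L] {𝔭 : Ideal (𝓞 K)} (hu : Unram K L 𝔭) :
    Unram K F 𝔭 := by
  have : IsGalois F L := IsGalois.tower_top_of_isGalois K F L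
  rw [unram_iff] at hu ⊢
  intro PF hPF h1 σ hσ
  obtain ⟨P, hP, h2⟩ := exists_above L PF
  rw [← h2] at hσ
  obtain ⟨τ, h3, h4⟩ := exists_lift_inertia hP hσ
  have h5 := hu P hP (by rw [← h1, ← h2, comap_comap_tower]) τ h3
  rw [← h4, h5]
  exact map_one (AlgEquiv.restrictNormalHom F)

end tower

end Vale.Agent.P022.H374
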